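import Vale.Agent.P097.H900.Defs
import Vale.Agent.P097.H202.Dict

/-! # P097 / tables with trigonometric polynomial support function: definitions and interfaces

Owner: helper536.  Paper proof: notes of helper536 (problem P097, kind proof).
`Y` = half width of the maximal Lazutkin strip, `t` = phase, `w` = rotation number. -/

set_option linter.all false

open Complex Metric Filter Topology Set
open scoped ComplexConjugate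

namespace Vale.Agent.P097.H536

open Vale.Agent.P097.TA Vale.Agent.P097.H202

/-! ## 1. The cone domains -/

/-- the cone `|w| < c (Y - |Im t|)` -/
def Cone (Y c : ℝ) : Set (ℂ × ℂ) := {p | ‖p.2‖ < c * (Y - |p.1.im|)}

/-- the good sector `a |w| < |Im w|` of the cone -/
def Sec (Y c a : ℝ) : Set (ℂ × ℂ) := {p | a * ‖p.2‖ < |p.2.im| ∧ ‖p.2‖ < c * (Y - |p.1.im|)}

/-- fifth order part `b(m, d)` of the generating function on the cone -/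
structure GenC (Y c K : ℝ) (b : ℂ → ℂ → ℂ) : Prop where
  hY : 0 < Y
  hc : 0 < c
  hK : 0 ≤ K
  hol : JD b (Cone Y c)
  bd : ∀ m d : ℂ, (m, d) ∈ Cone Y c → ‖b m d‖ * (Y - |m.im|) ^ 2 ≤ K
  per : ∀ m d : ℂ, (m, d) ∈ Cone Y c → b (m + 1) d = b m d
  even : ∀ m d : ℂ, (m, d) ∈ Cone Y c → b m (-d) = b m d
  real : ∀ m d : ℂ, (m, d) ∈ Cone Y c → b (conj m) (conj d) = conj (b m d)

/-- family of leaves on the cone -/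
structure FamC (Y c K : ℝ) (θ : ℂ → ℂ → ℂ) : Prop where
  hY : 0 < Y
  hc : 0 < c
  hK : 0 ≤ K
  hol : JD θ (Cone Y c)
  bd : ∀ t w : ℂ, (t, w) ∈ Cone Y c → ‖θ t w - t‖ * (Y - |t.im|) ≤ K * ‖w‖ ^ 2

/-! ## 2. The maximal strip -/

/-- the normal angle `Φ` on the strip `|Im z| < Y`; `R = h + h''` entire -/
structure StripΦ (R : ℂ → ℂ) (Λ Y C : ℝ) (Φ : ℂ → ℂ) : Prop where
  hΛ : 0 < Λ
  hY : 0 < Y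
  hC : 0 < C
  dR : Differentiable ℂ R
  dΦ : DifferentiableOn ℂ Φ (Str Y)
  ode : ∀ z ∈ Str Y, deriv Φ z ^ 3 * R (Φ z) = (Λ : ℂ) ^ 3
  per : ∀ z ∈ Str Y, Φ (z + 1) = Φ z + 2 * Real.pi
  re : ∀ z ∈ Str Y, Φ (conj z) = conj (Φ z)
  /-- `|Φ'| ≤ C / d` -/
  geo1 : ∀ z ∈ Str Y, ‖deriv Φ z‖ * (Y - |z.im|) ≤ C
  /-- curvature radius comparable on discs of radius `d / C` (image side) -/
  geo2 : ∀ z ∈ Str Y, ∀ ξ : ℂ, ‖ξ - Φ z‖ * C ≤ ‖deriv Φ z‖ * (Y - |z.im|) →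
    ‖R ξ‖ ≤ 2 * ‖R (Φ z)‖
  /-- distortion: `Φ` varies by at most `2 |Φ'| |δ|` on discs of radius `d / C` -/
  geo3 : ∀ z ∈ Str Y, ∀ ζ : ℂ, ‖ζ - z‖ * C ≤ Y - |z.im| →
    ‖Φ ζ - Φ z‖ ≤ 2 * ‖deriv Φ z‖ * ‖ζ - z‖

/-- exponent of the angle at an end where `R` vanishes to order `n - 1` -/
noncomputable def mu (n : ℕ) : ℂ := 3 / ((n : ℂ) + 2)

/-- a cusp end: `R` has a zero of order `n - 1 ≥ 1` at `ψ₀`, `Φ → ψ₀` at the point `β` of the top line -/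
structure CuspEnd (R Φ : ℂ → ℂ) (Y : ℝ) (n : ℕ) (β ψ₀ : ℂ) : Prop where
  hn : 2 ≤ n
  hβ : β.im = Y
  fac : ∃ R₁ : ℂ → ℂ, Differentiable ℂ R₁ ∧ R₁ ψ₀ ≠ 0 ∧ ∀ ξ, R ξ = (ξ - ψ₀) ^ (n - 1) * R₁ ξ
  lim : ∃ C₀ : ℂ, C₀ ≠ 0 ∧
    Tendsto (fun x : ℂ => (Φ x - ψ₀) / (I * (x - β)) ^ mu n) (𝓝[Str Y] β) (𝓝 C₀)

/-! ## 3. The blown up world -/

/-- primitive in `v` of `v ^ (n - 1) (k - v)` -/
noncomputable def Nf (n : ℕ) (k v : ℂ) : ℂ := k * v ^ n / n - v ^ (n + 1) / (n + 1)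

/-- model Euler-Lagrange expression of the slopes `a, k, c` of three consecutive lines -/
noncomputable def Mf (n : ℕ) (a k c : ℂ) : ℂ := Nf n k ((k + c) / 2) - Nf n k ((a + k) / 2)

/-- half plane cone -/
def HP (c : ℝ) : Set (ℂ × ℂ) := {p | ‖p.2‖ < c * p.1.re}

/-- exact world over the right half plane -/
structure World (n : ℕ) (c K : ℝ) (z : ℂ → ℂ → ℂ) : Prop where
  hn : 2 ≤ n
  hc : 0 < c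
  hc1 : c ≤ 1 / 2
  hK : 0 ≤ K
  hKc : K * c ^ 2 ≤ 1 / 4
  hol : JD z (HP c)
  bd : ∀ s u : ℂ, (s, u) ∈ HP c → ‖z s u - s‖ * s.re ≤ K * ‖u‖ ^ 2
  el : ∀ s u : ℂ, (s, u) ∈ HP (c / 2) →
    Mf n (z (s - u) u ^ mu n) (z s u ^ mu n) (z (s + u) u ^ mu n) = 0

/-! ## 4. The ratio function -/

/-- `G(x) = (1 - x^(n+1)) / (1 - x^n)` -/
noncomputable def Gf (n : ℕ) (x : ℂ) : ℂ :=
  (∑ i ∈ Finset.range (n + 1), x ^ i) / ∑ i ∈ Finset.range n, x ^ i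

/-- ratio of consecutive vertex slopes of the homogeneous world -/
structure QF (n : ℕ) (l₀ : ℝ) (q : ℂ → ℂ) : Prop where
  hn : 2 ≤ n
  hl : 0 < l₀
  hol : DifferentiableOn ℂ q {l : ℂ | l₀ < ‖l‖}
  re : ∀ l : ℂ, l₀ < ‖l‖ → q (conj l) = conj (q l)
  asym : ∃ C : ℝ, ∀ l : ℂ, l₀ < ‖l‖ → ‖q l - 1 + mu n / l‖ ≤ C / ‖l‖ ^ 2
  eq : ∀ l : ℂ, l₀ + 1 < ‖l‖ → Gf n (q l) + Gf n (1 / q (l + 1)) = 2 * ((n : ℂ) + 1) / n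

/-! ## 5. The packages -/

/-- the support function is a trigonometric polynomial -/
def TrigPoly (h : ℝ → ℝ) : Prop :=
  ∃ (N : ℕ) (a b : ℕ → ℝ), ∀ x : ℝ,
    h x = ∑ k ∈ Finset.range (N + 1), (a k * Real.cos (k * x) + b k * Real.sin (k * x))

/-- TRIG-T1: the maximal strip of a trigonometric polynomial table and its cusp end -/
def T1 : Prop := ∀ (h : ℝ → ℝ) (κ ρ Λ L : ℝ) (Hh HH lam Φ : ℂ → ℂ) (l φ : ℝ → ℝ),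
  LD h κ ρ Λ L Hh HH lam Φ l φ → TrigPoly h → (¬ ∃ c : ℝ, ∀ x, h x + deriv (deriv h) x = c) →
  ∃ (H G Φ' : ℂ → ℂ) (Y C : ℝ) (n : ℕ) (β ψ₀ : ℂ),
    Differentiable ℂ H ∧ (∀ z, HasDerivAt G (H z) z) ∧ (∀ z ∈ Str κ, H z = Hh z) ∧
    (∀ z ∈ Str κ, G z = HH z) ∧
    StripΦ (fun z => H z + deriv (deriv H) z) Λ Y C Φ' ∧ (∀ z ∈ Str (min ρ Y), Φ' z = Φ z) ∧
    CuspEnd (fun z => H z + deriv (deriv H) z) Φ' Y n β ψ₀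

/-- TRIG-T2: generating function on the cone -/
def T2 : Prop := ∀ (h : ℝ → ℝ) (κ ρ Λ L : ℝ) (Hh HH lam Φ : ℂ → ℂ) (l φ : ℝ → ℝ) (ρ' M : ℝ)
  (b : ℂ → ℂ → ℂ) (H G Φ' : ℂ → ℂ) (Y C : ℝ),
  LD h κ ρ Λ L Hh HH lam Φ l φ → Gen ρ' M b → IsGen ρ Λ Hh HH Φ ρ' b →
  Differentiable ℂ H → (∀ z, HasDerivAt G (H z) z) → (∀ z ∈ Str κ, H z = Hh z) →
  (∀ z ∈ Str κ, G z = HH z) →
  StripΦ (fun z => H z + deriv (deriv H) z) Λ Y C Φ' → (∀ z ∈ Str (min ρ Y), Φ' z = Φ z) →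
  ∃ (c K : ℝ) (B : ℂ → ℂ → ℂ), c ≤ 1 ∧ GenC Y c K B ∧
    (∀ x y : ℂ, ((x + y) / 2, y - x) ∈ Cone Y c → Fg B x y = 4 / (Λ : ℂ) ^ 3 * F0 H G Φ' x y) ∧
    (∃ ε > 0, ∀ m d : ℂ, |m.im| < ε → ‖d‖ < ε → B m d = b m d)

/-- TRIG-T4: the good sector -/
def T4 : Prop := ∀ (Y c K L r e a : ℝ) (b θ : ℂ → ℂ → ℂ), GenC Y c K b → Fam b L r e θ → 0 < a →
  ∃ (c' C ε : ℝ) (θ' : ℂ → ℂ → ℂ), 0 < c' ∧ 0 ≤ C ∧ 0 < ε ∧ JD θ' (Sec Y c' a) ∧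
    (∀ t w : ℂ, (t, w) ∈ Sec Y c' a → ‖θ' t w - t‖ * (Y - |t.im|) ≤ C * ‖w‖ ^ 2) ∧
    (∀ t w : ℂ, (t, w) ∈ Sec Y c' a → θ' (t + 1) w = θ' t w + 1) ∧
    (∀ t w : ℂ, (t, w) ∈ Sec Y c' a → |t.im| < ε → ‖w‖ < ε → θ' t w = θ t w)

/-- TRIG-T5: the radius lemma (pure complex analysis) -/
def T5 : Prop := ∀ (Y r e L c' C ε : ℝ) (f g : ℂ → ℂ → ℂ),
  0 < Y → 0 < r → 0 < e → 0 ≤ L → 0 < c' → 0 ≤ C → 0 < ε →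
  JD f (WW 0 r e) → Per f (WW 0 r e) → (∀ t w : ℂ, (t, w) ∈ WW 0 r e → ‖f t w‖ ≤ L * ‖w‖ ^ 2) →
  JD g (Sec Y c' (1 / 20)) → Per g (Sec Y c' (1 / 20)) →
  (∀ t w : ℂ, (t, w) ∈ Sec Y c' (1 / 20) → ‖g t w‖ * (Y - |t.im|) ≤ C * ‖w‖ ^ 2) →
  (∀ t w : ℂ, (t, w) ∈ Sec Y c' (1 / 20) → |t.im| < ε → ‖w‖ < ε → g t w = f t w) →
  ∃ (c K : ℝ) (F : ℂ → ℂ → ℂ), 0 < c ∧ 0 ≤ K ∧ JD F (Cone Y c) ∧
    (∀ t w : ℂ, (t, w) ∈ Cone Y c → ‖F t w‖ * (Y - |t.im|) ≤ K * ‖w‖ ^ 2) ∧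
    (∃ ε' > 0, ∀ t w : ℂ, |t.im| < ε' → ‖w‖ < ε' → F t w = f t w)

/-- TRIG-T6: blow-up at a cusp end -/
def T6 : Prop := ∀ (H Φ : ℂ → ℂ) (Λ Y C : ℝ) (n : ℕ) (β ψ₀ : ℂ) (c K : ℝ) (θ : ℂ → ℂ → ℂ),
  Differentiable ℂ H → StripΦ (fun z => H z + deriv (deriv H) z) Λ Y C Φ →
  CuspEnd (fun z => H z + deriv (deriv H) z) Φ Y n β ψ₀ → FamC Y c K θ →
  (∀ t w : ℂ, (t, w) ∈ Cone Y c → (t - w, w) ∈ Cone Y c → (t + w, w) ∈ Cone Y c →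
    θ t w ∈ Str Y → θ (t - w) w ∈ Str Y → θ (t + w) w ∈ Str Y →
    Kc H (Φ (θ t w)) ((Φ (θ (t - w) w) + Φ (θ t w)) / 2)
      = Kc H (Φ (θ t w)) ((Φ (θ t w) + Φ (θ (t + w) w)) / 2)) →
  ∃ (c' K' : ℝ) (z : ℂ → ℂ → ℂ), World n c' K' z

/-- TRIG-T7: a world is homogeneous, the ratio function -/
def T7 : Prop := ∀ (n : ℕ) (c K : ℝ) (z : ℂ → ℂ → ℂ), World n c K z → ∃ (l₀ : ℝ) (q : ℂ → ℂ), QF n l₀ q

/-- TRIG-T8: there is no ratio function -/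
def T8 : Prop := ∀ (n : ℕ) (l₀ : ℝ) (q : ℂ → ℂ), ¬ QF n l₀ q

/-- TRIG-T9: the theorem -/
def T9 : Prop := ∀ (h : ℝ → ℝ) (η : ℝ), 0 < η → SmoothTable h → TrigPoly h → Collar h η →
  ∃ r a b : ℝ, ∀ x, h x = r + a * Real.cos x + b * Real.sin x

end Vale.Agent.P097.H536
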