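import Vale.Agent.P097.H839.ConeA
import Vale.Agent.P167.BVP.Dir

/-!
# P097 / case [c] / LEAF LEMMA (helper624, note 15067, step (9))

`super_harnack` : a nonnegative superharmonic function (weak sense `Loc` of H839) in a disc is at
least one third of its mean over the circle on the disc of half the radius.
`leaf` : a graph `κ = k x` of a holomorphic function, relatively closed over a disc, contained in
`-ε ≤ Im κ`, cannot come close to two points `(xs, κ₁)`, `(xs, κ₂)` with `κ₁ ≠ κ₂` real.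
-/

set_option linter.all false

open Set Filter Metric Topology Complex InnerProductSpace

namespace Vale.Agent.P097.H536.Leaf

open Vale.Agent.P097.H839.Cone Vale.Agent.P167.BVP

theorem loc_min {R₁ R₂ : ℂ → ℝ} {z : ℂ} (h₁ : Loc R₁ z) (h₂ : Loc R₂ z) :
    Loc (fun w => min (R₁ w) (R₂ w)) z := by
  obtain ⟨r₁, hr₁, h1⟩ := h₁
  obtain ⟨r₂, hr₂, h2⟩ := h₂
  refine ⟨min r₁ r₂, lt_min hr₁ hr₂, fun r hr hlt GG V hV hcV hd hs => le_min ?_ ?_⟩
  · exact h1 r hr (hlt.trans_le (min_le_left _ _)) GG V hV hcV hd fun w hw =>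
      (hs w hw).trans_le (min_le_left _ _)
  · exact h2 r hr (hlt.trans_le (min_le_right _ _)) GG V hV hcV hd fun w hw =>
      (hs w hw).trans_le (min_le_right _ _)

theorem loc_const (c : ℝ) (z : ℂ) : Loc (fun _ => c) z := by
  have := loc_re (Φ := fun _ => (c : ℂ)) isOpen_univ (mem_univ z) (by fun_prop)
  simpa using this

/-- weak Harnack inequality for superharmonic functions -/
theorem super_harnack0 {s : ℂ → ℝ} {R : ℝ} (hR : 0 < R) (hs : ContinuousOn s (closedBall 0 R))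
    (hl : ∀ z ∈ ball (0 : ℂ) R, Loc s z) (h0 : ∀ z ∈ sphere (0 : ℂ) R, 0 ≤ s z) {w : ℂ}
    (hw : ‖w‖ ≤ R / 2) : Real.circleAverage s 0 R / 3 ≤ s w := by
  obtain ⟨v, hvc, hvh, hvs⟩ := exists_dirichlet hR (hs.mono sphere_subset_closedBall)
  obtain ⟨Φ, hΦ, hΦv⟩ := hvh.exists_analyticOnNhd_ball_re_eq
  have hRabs : |R| = R := abs_of_pos hR
  replace hΦv : ∀ z ∈ ball (0 : ℂ) R, (Φ z).re = v z := fun z hz => hΦv hz
  have key : ∀ z ∈ ball (0 : ℂ) R, 0 ≤ s z - (Φ z).re := by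
    refine min_principle isOpen_ball isBounded_ball ?_
      (fun z hz => (hl z hz).sub isOpen_ball hz hΦ.differentiableOn) ?_
    · exact ((hs.mono ball_subset_closedBall).sub
        (Complex.continuous_re.comp_continuousOn hΦ.continuousOn)).lowerSemicontinuousOn
    · intro ζ hζ δ hδ
      rw [frontier_ball _ hR.ne'] at hζ
      have hζ' : ζ ∈ closedBall (0 : ℂ) R := sphere_subset_closedBall hζ
      have h1 : ContinuousWithinAt (fun z => s z - v z) (closedBall 0 R) ζ :=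
        (hs ζ hζ').sub (hvc ζ hζ')
      have h2 : s ζ - v ζ = 0 := by rw [hvs ζ hζ, sub_self]
      have h3 : ∀ᶠ z in 𝓝[closedBall 0 R] ζ, -δ < s z - v z :=
        h1.eventually (lt_mem_nhds (by show -δ < s ζ - v ζ; rw [h2]; linarith))
      have h4 := nhdsWithin_mono ζ (ball_subset_closedBall (x := (0 : ℂ)) (ε := R)) h3
      filter_upwards [h4, self_mem_nhdsWithin] with z hz hzb
      rw [hΦv z hzb]
      exact hz.le
  have hwb : w ∈ ball (0 : ℂ) R := by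
    rw [mem_ball_zero_iff]; linarith
  have h1 : v w ≤ s w := by
    have := key w hwb
    rw [hΦv w hwb] at this
    linarith
  have hcl : HarmonicContOnCl v (ball 0 R) := ⟨hvh, by rwa [closure_ball _ hR.ne']⟩
  have h2 := hcl.circleAverage_re_herglotzRieszKernel_smul hwb
  have hsp : ContinuousOn v (sphere 0 |R|) := by
    rw [hRabs]; exact hvc.mono sphere_subset_closedBall
  have hci : CircleIntegrable v 0 R := hsp.circleIntegrable'
  have hci2 : CircleIntegrable ((re ∘ herglotzRieszKernel 0 w) • v) 0 R :=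
    ContinuousOn.circleIntegrable' ((kernel_continuousOn hwb).smul hsp)
  have h3 : Real.circleAverage ((1 / 3 : ℝ) • v) 0 R ≤
      Real.circleAverage ((re ∘ herglotzRieszKernel 0 w) • v) 0 R := by
    refine Real.circleAverage_mono (hci.const_smul) hci2 fun z hz => ?_
    rw [hRabs] at hz
    have hz0 : 0 ≤ v z := by rw [hvs z hz]; exact h0 z hz
    have h4 := le_re_herglotzRieszKernel hz hwb
    rw [sub_zero, sub_zero] at h4
    have h5 : (1 / 3 : ℝ) ≤ (R - ‖w‖) / (R + ‖w‖) := by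
      have := norm_nonneg w
      rw [div_le_div_iff₀ (by norm_num) (by linarith)]
      linarith
    simp only [Pi.smul_apply, Pi.smul_apply', smul_eq_mul, Function.comp_apply,
      herglotzRieszKernel_def, sub_zero]
    exact mul_le_mul_of_nonneg_right (h5.trans (by simpa using h4)) hz0
  have h6 : Real.circleAverage v 0 R = Real.circleAverage s 0 R :=
    Real.circleAverage_congr_sphere fun z hz => by rw [hRabs] at hz; exact hvs z hz
  rw [Real.circleAverage_smul, h2, h6, smul_eq_mul] at h3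
  linarith

theorem super_harnack {s : ℂ → ℝ} {c : ℂ} {R : ℝ} (hR : 0 < R)
    (hs : ContinuousOn s (closedBall c R))
    (hl : ∀ z ∈ ball c R, Loc s z) (h0 : ∀ z ∈ sphere c R, 0 ≤ s z) {w : ℂ}
    (hw : ‖w - c‖ ≤ R / 2) : Real.circleAverage s c R / 3 ≤ s w := by
  have h1 := super_harnack0 (s := fun z => s (z + c)) (w := w - c) hR ?_ ?_ ?_ hw
  · rw [sub_add_cancel] at h1
    have h2 : Real.circleAverage (fun z => s (z + c)) 0 R = Real.circleAverage s c R := by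
      simp only [Real.circleAverage_def, circleMap]
      congr 1
      refine intervalIntegral.integral_congr fun θ _ => ?_
      simp only [zero_add]
      rw [add_comm]
    rwa [h2] at h1
  · refine hs.comp (by fun_prop) fun z hz => ?_
    rw [mem_closedBall, dist_eq_norm, add_sub_cancel_right]
    exact mem_closedBall_zero_iff.1 hz
  · intro z hz
    refine (hl (z + c) ?_).comp_add
    rw [mem_ball, dist_eq_norm, add_sub_cancel_right]
    exact mem_ball_zero_iff.1 hz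
  · intro z hz
    refine h0 (z + c) ?_
    rw [mem_sphere, dist_eq_norm, add_sub_cancel_right]
    exact mem_sphere_zero_iff_norm.1 hz

/-- the barrier polynomial -/
noncomputable def Qp (ε C κ₁ : ℝ) (κ : ℂ) : ℂ :=
  (κ - κ₁ + ε * I) ^ 2 - C * I * (κ - κ₁ + ε * I)

theorem Qp_re (ε C κ₁ : ℝ) (κ : ℂ) :
    (Qp ε C κ₁ κ).re = (κ.re - κ₁) ^ 2 + (κ.im + ε) * (C - (κ.im + ε)) := by
  simp only [Qp, sub_re, pow_two, mul_re, add_re, sub_im, add_im, mul_im, ofReal_re, ofReal_im,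
    I_re, I_im]
  ring

/-- the superharmonic function of the graph -/
noncomputable def sg (ε C cb κ₁ : ℝ) (U : Set ℂ) (k : ℂ → ℂ) (x : ℂ) : ℝ :=
  open Classical in if x ∈ U then min (Qp ε C κ₁ (k x)).re cb else cb

theorem sg_in {ε C cb κ₁ : ℝ} {U : Set ℂ} {k : ℂ → ℂ} {x : ℂ} (hx : x ∈ U) :
    sg ε C cb κ₁ U k x = min (Qp ε C κ₁ (k x)).re cb := by
  rw [sg, if_pos hx]

theorem sg_out {ε C cb κ₁ : ℝ} {U : Set ℂ} {k : ℂ → ℂ} {x : ℂ} (hx : x ∉ U) :
    sg ε C cb κ₁ U k x = cb := by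
  rw [sg, if_neg hx]

/-- one end -/
theorem one_end {b ρ ε d C : ℝ} {κs xs : ℂ} {κ₁ : ℝ} (hρ : 0 < ρ) (hd : 0 < d)
    (hε : 0 < ε) (hεd : ε ≤ d) (hεC : 2 * (2 * b + ε) ≤ C) (h1 : ‖(κ₁ : ℂ) - κs‖ + 4 * d ≤ b)
    {U : Set ℂ} {k : ℂ → ℂ} (hU : IsOpen U) (hk : DifferentiableOn ℂ k U)
    (hkb : ∀ x ∈ U, ‖k x - κs‖ < b ∧ -ε ≤ (k x).im)
    (hcl : ∀ x ∈ ball xs ρ, x ∉ U → ∀ b' < b, ∀ᶠ y in 𝓝 x, y ∈ U → b' < ‖k y - κs‖)
    {x₁ : ℂ} (hx : x₁ ∈ U) (hx' : ‖x₁ - xs‖ ≤ ρ / 4) (hκ : ‖k x₁ - κ₁‖ < ε) :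
    (∀ x ∈ ball xs ρ, ContinuousAt (sg ε C (d ^ 2) κ₁ U k) x) ∧
    (∀ x, 0 ≤ sg ε C (d ^ 2) κ₁ U k x) ∧
    (∀ x ∈ U, 2 * d ≤ ‖k x - κ₁‖ → sg ε C (d ^ 2) κ₁ U k x = d ^ 2) ∧
    Real.circleAverage (sg ε C (d ^ 2) κ₁ U k) xs (ρ / 2) ≤ 3 * (ε ^ 2 + 2 * ε * C) := by
  have hb0 : 0 ≤ b := by
    have := norm_nonneg ((κ₁ : ℂ) - κs)
    linarith
  have hC0 : 0 ≤ C := by linarith
  -- the real part is at least `‖k x - κ₁ + ε i‖ ^ 2`
  have hY : ∀ x ∈ U, 0 ≤ (k x).im + ε ∧ (k x).im + ε ≤ C / 2 := by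
    intro x hx
    obtain ⟨h2, h3⟩ := hkb x hx
    have h4 : (k x).im - κs.im ≤ ‖k x - κs‖ := by
      have := (le_abs_self _).trans (abs_im_le_norm (k x - κs))
      simpa using this
    have h5 : κs.im ≤ ‖(κ₁ : ℂ) - κs‖ := by
      have := (neg_le_abs _).trans (abs_im_le_norm ((κ₁ : ℂ) - κs))
      simpa using this
    constructor <;> linarith
  have hlow : ∀ x ∈ U, ((k x).re - κ₁) ^ 2 + ((k x).im + ε) ^ 2 ≤ (Qp ε C κ₁ (k x)).re := by
    intro x hx
    obtain ⟨h2, h3⟩ := hY x hx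
    rw [Qp_re]
    nlinarith
  have hnorm : ∀ x, ‖k x - κ₁‖ ≤ Real.sqrt (((k x).re - κ₁) ^ 2 + ((k x).im + ε) ^ 2) + ε := by
    intro x
    have h2 : k x - κ₁ = (k x - κ₁ + ε * I) - ε * I := by ring
    have h3 : ‖k x - κ₁ + ε * I‖ = Real.sqrt (((k x).re - κ₁) ^ 2 + ((k x).im + ε) ^ 2) := by
      rw [Complex.norm_def, normSq_apply]
      congr 1
      simp only [add_re, sub_re, ofReal_re, mul_re, ofReal_im, I_re, I_im, add_im, sub_im, mul_im]
      ring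
    have h4 : ‖(ε : ℂ) * I‖ = ε := by
      rw [norm_mul, norm_I, mul_one, norm_real, Real.norm_of_nonneg hε.le]
    calc ‖k x - κ₁‖ = ‖(k x - κ₁ + ε * I) - ε * I‖ := by rw [← h2]
      _ ≤ ‖k x - κ₁ + ε * I‖ + ‖(ε : ℂ) * I‖ := norm_sub_le _ _
      _ = _ := by rw [h3, h4]
  have hfar : ∀ x ∈ U, 2 * d ≤ ‖k x - κ₁‖ → d ^ 2 ≤ (Qp ε C κ₁ (k x)).re := by
    intro x hx h2
    have h3 := hnorm x
    have h4 : d ≤ Real.sqrt (((k x).re - κ₁) ^ 2 + ((k x).im + ε) ^ 2) := by linarith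
    have h5 : 0 ≤ ((k x).re - κ₁) ^ 2 + ((k x).im + ε) ^ 2 := by positivity
    have h6 := Real.sq_sqrt h5
    exact le_trans (by nlinarith) (hlow x hx)
  have hfar' : ∀ x ∈ U, 2 * d ≤ ‖k x - κ₁‖ → sg ε C (d ^ 2) κ₁ U k x = d ^ 2 := by
    intro x hx h2
    rw [sg_in hx, min_eq_right (hfar x hx h2)]
  have hout : ∀ x ∈ ball xs ρ, x ∉ U → sg ε C (d ^ 2) κ₁ U k =ᶠ[𝓝 x] fun _ => d ^ 2 := by
    intro x hx hxU
    filter_upwards [hcl x hx hxU (b - 2 * d) (by linarith)] with y hy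
    by_cases hyU : y ∈ U
    · refine hfar' y hyU ?_
      have h2 := hy hyU
      have h3 : ‖k y - κs‖ ≤ ‖k y - κ₁‖ + ‖(κ₁ : ℂ) - κs‖ := by
        have : k y - κs = (k y - κ₁) + ((κ₁ : ℂ) - κs) := by ring
        rw [this]; exact norm_add_le _ _
      linarith
    · exact sg_out hyU
  have hin : ∀ x ∈ U, sg ε C (d ^ 2) κ₁ U k =ᶠ[𝓝 x] fun y => min (Qp ε C κ₁ (k y)).re (d ^ 2) := by
    intro x hx
    filter_upwards [hU.mem_nhds hx] with y hy
    exact sg_in hy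
  have hQ : DifferentiableOn ℂ (fun y => Qp ε C κ₁ (k y)) U := by
    have h2 : Differentiable ℂ (Qp ε C κ₁) := by unfold Qp; fun_prop
    exact h2.comp_differentiableOn hk
  have hcont : ∀ x ∈ ball xs ρ, ContinuousAt (sg ε C (d ^ 2) κ₁ U k) x := by
    intro x hx
    by_cases hxU : x ∈ U
    · refine ContinuousAt.congr ?_ (hin x hxU).symm
      have h2 : ContinuousAt (fun y => (Qp ε C κ₁ (k y)).re) x :=
        Complex.continuous_re.continuousAt.comp
          (hQ.differentiableAt (hU.mem_nhds hxU)).continuousAt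
      exact h2.min continuousAt_const
    · exact continuousAt_const.congr (hout x hx hxU).symm
  have hloc : ∀ x ∈ ball xs ρ, Loc (sg ε C (d ^ 2) κ₁ U k) x := by
    intro x hx
    by_cases hxU : x ∈ U
    · exact (loc_min (loc_re hU hxU hQ) (loc_const _ x)).congr (hin x hxU).symm
    · exact (loc_const _ x).congr (hout x hx hxU).symm
  have hnn : ∀ x, 0 ≤ sg ε C (d ^ 2) κ₁ U k x := by
    intro x
    by_cases hxU : x ∈ U
    · rw [sg_in hxU]
      exact le_min (le_trans (by positivity) (hlow x hxU)) (sq_nonneg d)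
    · rw [sg_out hxU]; positivity
  refine ⟨hcont, hnn, hfar', ?_⟩
  have hsub : closedBall xs (ρ / 2) ⊆ ball xs ρ := closedBall_subset_ball (by linarith)
  have h2 := super_harnack (s := sg ε C (d ^ 2) κ₁ U k) (c := xs) (R := ρ / 2) (by linarith)
    (fun z hz => (hcont z (hsub hz)).continuousWithinAt)
    (fun z hz => hloc z (hsub (ball_subset_closedBall hz))) (fun z _ => hnn z) (w := x₁)
    (by linarith)
  have h3 : sg ε C (d ^ 2) κ₁ U k x₁ ≤ ε ^ 2 + 2 * ε * C := by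
    rw [sg_in hx]
    refine (min_le_left _ _).trans ?_
    rw [Qp_re]
    have h4 : |(k x₁).re - κ₁| < ε := by
      refine lt_of_le_of_lt ?_ hκ
      have := abs_re_le_norm (k x₁ - κ₁)
      simpa using this
    have h5 : |(k x₁).im| < ε := by
      refine lt_of_le_of_lt ?_ hκ
      have := abs_im_le_norm (k x₁ - κ₁)
      simpa using this
    obtain ⟨h6, h7⟩ := hY x₁ hx
    have h8 := abs_lt.1 h5
    have h9 : ((k x₁).re - κ₁) ^ 2 ≤ ε ^ 2 := by
      rw [← sq_abs ((k x₁).re - κ₁)]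
      nlinarith [abs_nonneg ((k x₁).re - κ₁)]
    nlinarith
  linarith

/-- **LEAF LEMMA** -/
theorem leaf {b ρ : ℝ} (hρ : 0 < ρ) (xs κs : ℂ) {κ₁ κ₂ : ℝ} (h1 : ‖(κ₁ : ℂ) - κs‖ < b)
    (h2 : ‖(κ₂ : ℂ) - κs‖ < b) (hne : κ₁ ≠ κ₂) : ∃ ε > 0, ∀ (U : Set ℂ) (k : ℂ → ℂ), IsOpen U →
    DifferentiableOn ℂ k U → (∀ x ∈ U, ‖k x - κs‖ < b ∧ -ε ≤ (k x).im) →
    (∀ x ∈ ball xs ρ, x ∉ U → ∀ b' < b, ∀ᶠ y in 𝓝 x, y ∈ U → b' < ‖k y - κs‖) →
    ∀ x₁ ∈ U, ‖x₁ - xs‖ < ε → ‖k x₁ - κ₁‖ < ε →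
    ∀ x₂ ∈ U, ‖x₂ - xs‖ < ε → ‖k x₂ - κ₂‖ < ε → False := by
  have hb : 0 < b := (norm_nonneg _).trans_lt h1
  set d : ℝ := min |κ₁ - κ₂| (min (b - ‖(κ₁ : ℂ) - κs‖) (b - ‖(κ₂ : ℂ) - κs‖)) / 4 with hd
  have hm : 0 < min |κ₁ - κ₂| (min (b - ‖(κ₁ : ℂ) - κs‖) (b - ‖(κ₂ : ℂ) - κs‖)) :=
    lt_min (abs_pos.2 (sub_ne_zero.2 hne)) (lt_min (by linarith) (by linarith))
  have hd0 : 0 < d := by positivity
  have d1 : 4 * d ≤ |κ₁ - κ₂| := by
    have := min_le_left |κ₁ - κ₂| (min (b - ‖(κ₁ : ℂ) - κs‖) (b - ‖(κ₂ : ℂ) - κs‖))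
    linarith
  have d2 : ‖(κ₁ : ℂ) - κs‖ + 4 * d ≤ b := by
    have := (min_le_right |κ₁ - κ₂| (min (b - ‖(κ₁ : ℂ) - κs‖) (b - ‖(κ₂ : ℂ) - κs‖))).trans
      (min_le_left _ _)
    linarith
  have d3 : ‖(κ₂ : ℂ) - κs‖ + 4 * d ≤ b := by
    have := (min_le_right |κ₁ - κ₂| (min (b - ‖(κ₁ : ℂ) - κs‖) (b - ‖(κ₂ : ℂ) - κs‖))).trans
      (min_le_right _ _)
    linarith
  set C : ℝ := 2 * (2 * b + 1) with hC
  set ε : ℝ := min (min 1 d) (min (ρ / 4) (d ^ 2 / (100 * (C + 1)))) with hε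
  have hC0 : 0 < C := by positivity
  have hε0 : 0 < ε := lt_min (lt_min one_pos hd0) (lt_min (by positivity) (by positivity))
  have e1 : ε ≤ 1 := (min_le_left _ _).trans (min_le_left _ _)
  have e2 : ε ≤ d := (min_le_left _ _).trans (min_le_right _ _)
  have e3 : ε ≤ ρ / 4 := (min_le_right _ _).trans (min_le_left _ _)
  have e4 : ε ≤ d ^ 2 / (100 * (C + 1)) := (min_le_right _ _).trans (min_le_right _ _)
  have e5 : ε * (100 * (C + 1)) ≤ d ^ 2 := by
    rwa [le_div_iff₀ (by positivity)] at e4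
  refine ⟨ε, hε0, fun U k hU hk hkb hcl x₁ hx1 hx1' hκ1 x₂ hx2 hx2' hκ2 => ?_⟩
  obtain ⟨a1, a2, a3, a4⟩ := one_end (C := C) hρ hd0 hε0 e2 (by rw [hC]; linarith) d2 hU hk hkb hcl hx1
    (hx1'.le.trans e3) hκ1
  obtain ⟨b1, b2, b3, b4⟩ := one_end (C := C) hρ hd0 hε0 e2 (by rw [hC]; linarith) d3 hU hk hkb hcl hx2
    (hx2'.le.trans e3) hκ2
  set s₁ := sg ε C (d ^ 2) κ₁ U k with hs1
  set s₂ := sg ε C (d ^ 2) κ₂ U k with hs2
  have hsum : ∀ x, d ^ 2 ≤ s₁ x + s₂ x := by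
    intro x
    by_cases hxU : x ∈ U
    · by_cases hx : 2 * d ≤ ‖k x - κ₁‖
      · have h3 := a3 x hxU hx
        have := b2 x
        linarith
      · push Not at hx
        have h4 : |κ₁ - κ₂| ≤ ‖k x - κ₁‖ + ‖k x - κ₂‖ := by
          have h5 : ((κ₁ - κ₂ : ℝ) : ℂ) = (k x - κ₂) - (k x - κ₁) := by push_cast; ring
          have h6 := norm_sub_le (k x - κ₂) (k x - κ₁)
          rw [← h5, norm_real, Real.norm_eq_abs] at h6
          linarith
        have h3 := b3 x hxU (by linarith)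
        have := a2 x
        linarith
    · have h3 : s₁ x = d ^ 2 := sg_out hxU
      have := b2 x
      linarith
  have hsub : sphere xs |ρ / 2| ⊆ ball xs ρ := by
    rw [abs_of_pos (by linarith)]
    exact sphere_subset_closedBall.trans (closedBall_subset_ball (by linarith))
  have ci1 : CircleIntegrable s₁ xs (ρ / 2) :=
    ContinuousOn.circleIntegrable' fun z hz => (a1 z (hsub hz)).continuousWithinAt
  have ci2 : CircleIntegrable s₂ xs (ρ / 2) :=
    ContinuousOn.circleIntegrable' fun z hz => (b1 z (hsub hz)).continuousWithinAt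
  have h7 : d ^ 2 ≤ Real.circleAverage (s₁ + s₂) xs (ρ / 2) := by
    have h8 := Real.circleAverage_mono (f₁ := fun _ => d ^ 2) (f₂ := s₁ + s₂) (c := xs)
      (R := ρ / 2) (by simp) (ci1.add ci2) fun x _ => hsum x
    rwa [Real.circleAverage_const] at h8
  rw [Real.circleAverage_add ci1 ci2] at h7
  nlinarith

end Vale.Agent.P097.H536.Leaf
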